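import Crest.Agent.X261.Fam.GA

/-!
# Row 261, package FAM, part TESTS (helper1): equivariant extension of a test map

* `ex0 A i u` : extension by zero of a map on a chart;
* `ext D r i v u` : the `M`-equivariant map which is `u` on the sheet `(i, v)` and vanishes off the
  translates of that sheet;
* `IM_one` : the integral of a density living on one sheet modulo `M`.
-/

set_option autoImplicit false
set_option linter.unusedSectionVars false

open Set Filter Topology MeasureTheory Matrix
open scoped ComplexConjugate ComplexOrder InnerProductSpace ContDiff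

namespace Crest.Agent.X261.Fam1

open Crest.Agent.R275.Geo hiding rd
open Crest.Agent.R275.EDR890 Crest.Agent.R273.UCov_914
open Crest.Agent.R273.Kah_333
open Crest.Agent.X261.Fam Crest.Agent.X261.Cov.B
open Crest.Agent.X261.Rel.Act (Rep Act)

noncomputable section

variable {n q : ℕ} {X : Type} [TopologicalSpace X] {A : Atl n X} {G : Type} [Group G]

section ex0

variable {W : Type*} [NormedAddCommGroup W] [NormedSpace ℝ W]

/-- extension by zero -/
def ex0 (A : Atl n X) (i : A.ι) (u : Cn n → W) : X → W :=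
  (A.e i).source.indicator fun x => u (A.e i x)

theorem ex0_of_mem {i : A.ι} (u : Cn n → W) {x : X} (hx : x ∈ (A.e i).source) :
    ex0 A i u x = u (A.e i x) := indicator_of_mem hx _

theorem ex0_of_notMem {i : A.ι} (u : Cn n → W) {x : X} (hx : x ∉ (A.e i).source) :
    ex0 A i u x = 0 := indicator_of_notMem hx _

theorem ex0_symm {i : A.ι} (u : Cn n → W) {z : Cn n} (hz : z ∈ (A.e i).target) :
    ex0 A i u ((A.e i).symm z) = u z := by
  rw [ex0_of_mem u ((A.e i).map_target hz), (A.e i).right_inv hz]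

variable [T2Space X] {i : A.ι} {u : Cn n → W}

/-- off the image of the support the extension vanishes near the point -/
theorem ex0_ev (hc : HasCompactSupport u) (hs : tsupport u ⊆ (A.e i).target) {x : X}
    (hx : x ∉ (A.e i).symm '' tsupport u) : ex0 A i u =ᶠ[𝓝 x] fun _ => 0 := by
  have hK : IsCompact ((A.e i).symm '' tsupport u) :=
    hc.isCompact.image_of_continuousOn ((A.e i).continuousOn_symm.mono hs)
  filter_upwards [hK.isClosed.isOpen_compl.mem_nhds hx] with y hy
  by_cases h : y ∈ (A.e i).source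
  · rw [ex0_of_mem u h]
    by_contra h0
    exact hy ⟨_, subset_tsupport _ h0, (A.e i).left_inv h⟩
  · exact ex0_of_notMem u h

theorem ex0_ev' (hc : HasCompactSupport u) (hs : tsupport u ⊆ (A.e i).target) {x : X}
    (hx : x ∉ (A.e i).source) : ex0 A i u =ᶠ[𝓝 x] fun _ => 0 :=
  ex0_ev hc hs fun ⟨_, hz, h⟩ => hx (h ▸ (A.e i).map_target (hs hz))

theorem sm_ex0 (hu : ContDiff ℝ ∞ u) (hc : HasCompactSupport u)
    (hs : tsupport u ⊆ (A.e i).target) : A.Sm (ex0 A i u) := by
  intro j z hz
  have hcz : ContinuousAt (A.e j).symm z := (A.e j).continuousAt_symm hz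
  by_cases h : (A.e j).symm z ∈ (A.e i).source
  · have ho : IsOpen {z | z ∈ (A.e j).target ∧ (A.e j).symm z ∈ (A.e i).source} :=
      (A.e j).isOpen_inter_preimage_symm (A.e i).open_source
    have h1 : ContDiffAt ℝ ∞ (fun z => A.e i ((A.e j).symm z)) z :=
      (Crest.Agent.R275.GC293.contDiffOn_change A j i).contDiffAt (ho.mem_nhds ⟨hz, h⟩)
    refine ((hu.contDiffAt.comp z h1).congr_of_eventuallyEq ?_).contDiffWithinAt
    filter_upwards [ho.mem_nhds ⟨hz, h⟩] with w hw
    exact ex0_of_mem u hw.2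
  · exact (contDiffAt_const.congr_of_eventuallyEq
      (hcz.eventually (ex0_ev' hc hs h))).contDiffWithinAt

end ex0

variable {H : Type*} [NormedAddCommGroup H] [InnerProductSpace ℂ H]
variable {M : Subgroup G}

open Classical in
/-- the operator attached to a sheet -/
def op (r : Rep M H) (v w : G) : H →L[ℂ] H :=
  if h : w⁻¹ * v ∈ M then (r.π ⟨w⁻¹ * v, h⟩).toContinuousLinearEquiv else 0

theorem op_of_mem (r : Rep M H) {v w : G} (h : w⁻¹ * v ∈ M) (x : H) :
    op r v w x = r.π ⟨w⁻¹ * v, h⟩ x := by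
  rw [op, dif_pos h]; rfl

theorem op_of_notMem (r : Rep M H) {v w : G} (h : w⁻¹ * v ∉ M) : op r v w = 0 := by
  rw [op, dif_neg h]

theorem op_self (r : Rep M H) (v : G) (x : H) : op r v v x = x := by
  have h : v⁻¹ * v ∈ M := by rw [inv_mul_cancel]; exact M.one_mem
  have h1 : (⟨v⁻¹ * v, h⟩ : M) = 1 := Subtype.ext (inv_mul_cancel v)
  rw [op_of_mem r h, h1, map_one]; rfl

theorem op_mul (r : Rep M H) (v w : G) (m : M) (x : H) :
    op r v (w * (m : G)⁻¹) x = r.π m (op r v w x) := by
  have e : (w * (m : G)⁻¹)⁻¹ * v = m * (w⁻¹ * v) := by group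
  by_cases h : w⁻¹ * v ∈ M
  · have h' : (w * (m : G)⁻¹)⁻¹ * v ∈ M := e ▸ M.mul_mem m.2 h
    have h1 : (⟨_, h'⟩ : M) = m * ⟨_, h⟩ := Subtype.ext e
    rw [op_of_mem r h', op_of_mem r h, h1, map_mul]; rfl
  · have h' : (w * (m : G)⁻¹)⁻¹ * v ∉ M := fun h1 => h ((M.mul_mem_cancel_left m.2).1 (e ▸ h1))
    rw [op_of_notMem r h', op_of_notMem r h]
    simp

theorem J_op (r : Rep M H) (v w : G) (x : H) : r.J (op r v w x) = op r v w (r.J x) := by
  by_cases h : w⁻¹ * v ∈ M
  · rw [op_of_mem r h, op_of_mem r h, r.Jπ]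
  · rw [op_of_notMem r h]; simp

theorem norm_op_le (r : Rep M H) (v w : G) (x : H) : ‖op r v w x‖ ≤ ‖x‖ := by
  by_cases h : w⁻¹ * v ∈ M
  · rw [op_of_mem r h, LinearIsometryEquiv.norm_map]
  · rw [op_of_notMem r h]; simp

/-- the equivariant extension of a test map -/
def ext (D : MonD A G) (r : Rep M H) (i : A.ι) (v : G) (u : Cn n → H) (e : D.cov G) : H :=
  op r v (D.co i e) (ex0 A i u (D.pr e))

variable (D : MonD A G) (r : Rep M H) {i : A.ι} (v : G) {u : Cn n → H}

theorem ext_pt (u : Cn n → H) (j : A.ι) (w : G) {x : X} (hx : x ∈ (A.e j).source) :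
    ext D r i v u (D.pt j w x) = op r v (cst D j i * w) (ex0 A i u x) := by
  rw [ext, D.pr_pt]
  by_cases h : x ∈ (A.e i).source
  · rw [D.co_pt' w hx h, c_eq_cst D hx h, smul_eq_mul]
  · rw [ex0_of_notMem u h, map_zero, map_zero]

theorem rd_ext (u : Cn n → H) (j : A.ι) (w : G) {z : Cn n} (hz : z ∈ (A.e j).target) :
    rd D (ext D r i v u) j w z = op r v (cst D j i * w) (ex0 A i u ((A.e j).symm z)) :=
  ext_pt D r v u j w ((A.e j).map_target hz)

theorem rd_ext_chart (u : Cn n → H) (w : G) {z : Cn n} (hz : z ∈ (A.e i).target) :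
    rd D (ext D r i v u) i w z = op r v w (u z) := by
  have hx := (A.e i).map_target hz
  rw [rd, ext, D.pr_pt, D.co_pt w hx, ex0_symm u hz]

theorem rd_ext_self (u : Cn n → H) {z : Cn n} (hz : z ∈ (A.e i).target) :
    rd D (ext D r i v u) i v z = u z := by rw [rd_ext_chart D r v u v hz, op_self]

theorem rd_ext_ne (u : Cn n → H) {w : G} (h : w⁻¹ * v ∉ M) {z : Cn n} (hz : z ∈ (A.e i).target) :
    rd D (ext D r i v u) i w z = 0 := by
  rw [rd_ext_chart D r v u w hz, op_of_notMem r h]; rfl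

theorem rd_ext_self_ev (u : Cn n → H) {z : Cn n} (hz : z ∈ (A.e i).target) :
    rd D (ext D r i v u) i v =ᶠ[𝓝 z] u := by
  filter_upwards [(A.e i).open_target.mem_nhds hz] with w hw using rd_ext_self D r v u hw

theorem rd_ext_ne_ev (u : Cn n → H) {w : G} (h : w⁻¹ * v ∉ M) {z : Cn n}
    (hz : z ∈ (A.e i).target) : rd D (ext D r i v u) i w =ᶠ[𝓝 z] fun _ => 0 := by
  filter_upwards [(A.e i).open_target.mem_nhds hz] with y hy using rd_ext_ne D r v u h hy

theorem th_congr {F F' : Cn n → H} {z : Cn n} (h : F =ᶠ[𝓝 z] F') : th F z = th F' z := by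
  funext b
  simp only [th, wd, h.fderiv_eq]

theorem th_zero (z : Cn n) : th (fun _ : Cn n => (0 : H)) z = 0 := by
  funext b
  simp [th, wd, wdL]

theorem th_of_ev {F : Cn n → H} {z : Cn n} (h : F =ᶠ[𝓝 z] fun _ => 0) : th F z = 0 := by
  rw [th_congr h, th_zero]

theorem th_of_notMem {F : Cn n → H} {z : Cn n} (h : z ∉ tsupport F) : th F z = 0 :=
  th_of_ev (notMem_tsupport_iff_eventuallyEq.1 h)

theorem th_ext_self (u : Cn n → H) {z : Cn n} (hz : z ∈ (A.e i).target) :
    th (rd D (ext D r i v u) i v) z = th u z := th_congr (rd_ext_self_ev D r v u hz)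

theorem th_ext_ne (u : Cn n → H) {w : G} (h : w⁻¹ * v ∉ M) {z : Cn n} (hz : z ∈ (A.e i).target) :
    th (rd D (ext D r i v u) i w) z = 0 := th_of_ev (rd_ext_ne_ev D r v u h hz)

/-- where the extension does not vanish -/
theorem exists_of_ext_ne {e : D.cov G} (h : ext D r i v u e ≠ 0) :
    ∃ m ∈ M, ∃ z ∈ (A.e i).target, u z ≠ 0 ∧ e = m • D.pt i v ((A.e i).symm z) := by
  have h1 : D.pr e ∈ (A.e i).source := by
    by_contra h1
    exact h (by rw [ext, ex0_of_notMem u h1, map_zero])
  have h2 : (D.co i e)⁻¹ * v ∈ M := by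
    by_contra h2
    exact h (by rw [ext, op_of_notMem r h2]; rfl)
  refine ⟨_, h2, _, (A.e i).map_source h1, fun h0 => h ?_, ?_⟩
  · rw [ext, ex0_of_mem u h1, h0, map_zero]
  · rw [(A.e i).left_inv h1, D.deck_pt, _root_.mul_inv_rev, inv_inv, mul_inv_cancel_left, D.pt_co h1]

variable [T2Space X]

theorem rd_ext_ev (hc : HasCompactSupport u) (hs : tsupport u ⊆ (A.e i).target) (j : A.ι) (w : G)
    {z : Cn n} (hz : z ∈ (A.e j).target) (h : (A.e j).symm z ∉ (A.e i).symm '' tsupport u) :
    rd D (ext D r i v u) j w =ᶠ[𝓝 z] fun _ => 0 := by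
  filter_upwards [(A.e j).open_target.mem_nhds hz,
    ((A.e j).continuousAt_symm hz).eventually (ex0_ev hc hs h)] with y hy h1
  rw [rd_ext D r v u j w hy, h1, map_zero]

theorem th_ext_off (hc : HasCompactSupport u) (hs : tsupport u ⊆ (A.e i).target) (j : A.ι) (w : G)
    {x : X} (hx : x ∈ (A.e j).source) (h : x ∉ (A.e i).source) :
    th (rd D (ext D r i v u) j w) (A.e j x) = 0 := by
  refine th_of_ev (rd_ext_ev D r v hc hs j w ((A.e j).map_source hx) ?_)
  rw [(A.e j).left_inv hx]
  rintro ⟨z, hz, rfl⟩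
  exact h ((A.e i).map_target (hs hz))

theorem sm_ext (hu : ContDiff ℝ ∞ u) (hc : HasCompactSupport u)
    (hs : tsupport u ⊆ (A.e i).target) : (D.atl G).Sm (ext D r i v u) := fun p =>
  (((op r v (cst D p.1 i * p.2)).restrictScalars ℝ).contDiff.comp_contDiffOn
    (sm_ex0 hu hc hs p.1)).congr fun _ hz => rd_ext D r v u p.1 p.2 hz

/-- **the extension is a smooth real equivariant map** -/
theorem eqv_ext (hu : ContDiff ℝ ∞ u) (hc : HasCompactSupport u)
    (hs : tsupport u ⊆ (A.e i).target) (hr : ∀ z, r.J (u z) = u z) :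
    Eqv D M r (fun _ => 0) (ext D r i v u) where
  sm := sm_ext D r v hu hc hs
  real e := by
    rw [ext, J_op]
    congr 1
    by_cases h : D.pr e ∈ (A.e i).source
    · rw [ex0_of_mem u h, hr]
    · rw [ex0_of_notMem u h, map_zero]
  eqv m e := by rw [ext, ext, D.co_deck, D.pr_deck, op_mul, add_zero]

variable {D} {a : D.cov G → Cn q}

omit [T2Space X] in
theorem diff_rd (hd : Dat D M a) (i : A.ι) (v : G) :
    DifferentiableOn ℂ (rd D a i v) (A.e i).target := by
  have := hd.hol (i, v)
  rwa [preimage_univ, inter_univ] at this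

/-- the differential of the extension lives over the image of the support -/
theorem th_ext_of_notMem (hd : Dat D M a) (hc : HasCompactSupport u)
    (hs : tsupport u ⊆ (A.e i).target) (j : A.ι) (w : G) {z : Cn n} (hz : z ∈ (A.e j).target)
    (h : rd D a j w z ∉ rd D a i v '' tsupport u) : th (rd D (ext D r i v u) j w) z = 0 := by
  have h1 := (diff_rd hd i v).continuousOn
  have h2 := (diff_rd hd j w).continuousOn
  have hK : IsCompact (rd D a i v '' tsupport u) := hc.isCompact.image_of_continuousOn (h1.mono hs)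
  refine th_of_ev ?_
  filter_upwards [(h2.continuousAt ((A.e j).open_target.mem_nhds hz)).eventually
    (hK.isClosed.isOpen_compl.mem_nhds h)] with y hy
  by_contra h0
  obtain ⟨m, hm, z', -, h3, h4⟩ := exists_of_ext_ne D r v h0
  refine hy ⟨z', subset_tsupport _ h3, ?_⟩
  rw [rd, rd, h4, hd.inv m hm]

variable [Finite A.ι] [Countable G] (K : Kah A) {R : ℝ} {Φ : A.ι → G → Cn n → ℂ}

/-- **densities living on one sheet modulo `M`** -/
theorem IM_one (hd : Dat D M a) (h : Den D M a R Φ) (i : A.ι) (v : G)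
    (h0 : ∀ j w, ∀ x ∈ (A.e j).source, x ∉ (A.e i).source → Φ j w (A.e j x) = 0)
    (h1 : ∀ w, w⁻¹ * v ∉ M → ∀ z ∈ (A.e i).target, Φ i w z = 0) :
    IM D K M Φ = ∫ z in (A.e i).target, Φ i v z := by
  rw [IM_eq_sum K hd h i {(v : G ⧸ M)} h0 fun w hw z hz => h1 _ (fun h2 => hw ?_) z hz,
    Finset.sum_singleton]
  · exact setIntegral_congr_fun (A.e i).open_target.measurableSet fun z hz => h.out i v hz
  · rw [Finset.mem_singleton, ← QuotientGroup.out_eq' w]
    exact QuotientGroup.eq.2 h2

/-- pairing of the differential of an extension with any family -/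
theorem IM_ext (hd : Dat D M a) (hc : HasCompactSupport u) (hs : tsupport u ⊆ (A.e i).target)
    (B : A.ι → G → Cn n → (Fin n → H) → ℂ) (hB : ∀ j w z, B j w z 0 = 0)
    (h : Den D M a R fun j w z => B j w z (th (rd D (ext D r i v u) j w) z)) :
    IM D K M (fun j w z => B j w z (th (rd D (ext D r i v u) j w) z)) =
      ∫ z, B i v z (th u z) := by
  rw [IM_one K hd h i v (fun j w x hx h1 => by rw [th_ext_off D r v hc hs j w hx h1, hB])
    fun w hw z hz => by rw [th_ext_ne D r v u hw hz, hB]]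
  rw [setIntegral_congr_fun (A.e i).open_target.measurableSet
    (g := fun z => B i v z (th u z)) fun z hz => by rw [th_ext_self D r v u hz]]
  exact setIntegral_eq_integral_of_forall_compl_eq_zero fun z hz => by
    rw [th_of_notMem fun h1 => hz (hs h1), hB]

end

end Crest.Agent.X261.Fam1
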